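import Mathlib
import Vale.Agent.P074.Upper

/-!
# Stability exponents of quadratic optimal transport maps: no exponent above `1/3`
-/

namespace Vale.Agent.Results.P074.Upper

open MeasureTheory
open scoped ENNReal NNReal

section
variable {E : Type*} [NormedAddCommGroup E]

/-- `T` is a quadratic optimal transport map from `ρ` to `μ`: it minimizes
`∫ |x - T x|² dρ` over Borel maps pushing `ρ` forward to `μ`. -/
def IsOptimalMap [MeasurableSpace E] (ρ μ : Measure E) (T : E → E) : Prop :=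
  Measurable T ∧ ρ.map T = μ ∧
    ∀ S : E → E, Measurable S → ρ.map S = μ →
      ∫⁻ x, ‖x - T x‖ₑ ^ 2 ∂ρ ≤ ∫⁻ x, ‖x - S x‖ₑ ^ 2 ∂ρ

/-- The Wasserstein distance `W₂`: infimum over all couplings of `μ` and `ν`. -/
noncomputable def W2 [MeasurableSpace E] (μ ν : Measure E) : ℝ≥0∞ :=
  (⨅ (π : Measure (E × E)) (_ : π.map Prod.fst = μ ∧ π.map Prod.snd = ν),
    ∫⁻ q, ‖q.1 - q.2‖ₑ ^ 2 ∂π) ^ (1 / 2 : ℝ)

/-- The distance `‖S - T‖` in `L²(ρ)`. -/
noncomputable def L2dist [MeasurableSpace E] (ρ : Measure E) (S T : E → E) : ℝ≥0∞ :=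
  (∫⁻ x, ‖S x - T x‖ₑ ^ 2 ∂ρ) ^ (1 / 2 : ℝ)

/-- The uniform probability measure on `K`. -/
noncomputable def unif [MeasureSpace E] (K : Set E) : Measure E :=
  (volume K)⁻¹ • volume.restrict K

end

/-- The exponent `α` is admissible in the Euclidean space `E`: for every compact convex `K` with
nonempty interior (carrying its uniform probability measure) and every nonempty compact `Y` there
is a finite constant `C` with `‖T_μ - T_ν‖ ≤ C W₂(μ, ν)^α` for all probability measures `μ, ν`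
supported in `Y`. -/
def Admissible (E : Type*) [NormedAddCommGroup E] [NormedSpace ℝ E] [MeasureSpace E]
    (α : ℝ) : Prop :=
  ∀ K : Set E, IsCompact K → Convex ℝ K → (interior K).Nonempty →
    ∀ Y : Set E, IsCompact Y → Y.Nonempty →
      ∃ C : ℝ≥0, ∀ μ ν : Measure E, IsProbabilityMeasure μ → IsProbabilityMeasure ν →
        μ Yᶜ = 0 → ν Yᶜ = 0 → ∀ S T : E → E,
          IsOptimalMap (unif K) μ S → IsOptimalMap (unif K) ν T →
            L2dist (unif K) S T ≤ C * W2 μ ν ^ α

/-- The supremum of the admissible exponents in `(0, 1]`, in dimension `d`. -/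
noncomputable def alphaStar (d : ℕ) : ℝ :=
  sSup {α : ℝ | 0 < α ∧ α ≤ 1 ∧ Admissible (EuclideanSpace ℝ (Fin d)) α}

lemma not_admissible (d : ℕ) (hd : 2 ≤ d) (α : ℝ) (hα : 1 / 3 < α) (hα1 : α ≤ 1) :
    ¬ Admissible (EuclideanSpace ℝ (Fin d)) α := by
  intro hadm
  obtain ⟨C, hC⟩ := hadm (Vale.Agent.P074.cube d) (Vale.Agent.P074.isCompact_cube d)
    (Vale.Agent.P074.convex_cube d) (Vale.Agent.P074.interior_cube d)
    (Metric.closedBall 0 1) (isCompact_closedBall 0 1) ⟨0, by simp⟩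
  refine Vale.Agent.P074.upper d hd α hα hα1 C ?_
  intro S T hS hT hS1 hT1 hSo hTo π hπ1 hπ2
  have hsupp : ∀ U : EuclideanSpace ℝ (Fin d) → EuclideanSpace ℝ (Fin d), Measurable U →
      (∀ x, ‖U x‖ ≤ 1) →
      ((Vale.Agent.P074.rho d).map U) (Metric.closedBall 0 1)ᶜ = 0 := by
    intro U hU hU1
    rw [Measure.map_apply hU Metric.isClosed_closedBall.measurableSet.compl]
    have : U ⁻¹' (Metric.closedBall 0 1)ᶜ = ∅ := by
      ext x; simpa using hU1 x
    rw [this, measure_empty]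
  have h := hC ((Vale.Agent.P074.rho d).map S) ((Vale.Agent.P074.rho d).map T)
    (Measure.isProbabilityMeasure_map hS.aemeasurable)
    (Measure.isProbabilityMeasure_map hT.aemeasurable)
    (hsupp S hS hS1) (hsupp T hT hT1) S T ⟨hS, rfl, hSo⟩ ⟨hT, rfl, hTo⟩
  refine h.trans ?_
  gcongr
  refine ENNReal.rpow_le_rpow ?_ (by norm_num)
  exact iInf₂_le π ⟨hπ1, hπ2⟩

/-- In every dimension `d ≥ 2` no exponent `α > 1/3` is admissible; in particular `1/2` is not
admissible, and the supremum of the admissible exponents is at most `1/3`. -/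
theorem result (d : ℕ) (hd : 2 ≤ d) :
    (∀ α : ℝ, 1 / 3 < α → α ≤ 1 → ¬ Admissible (EuclideanSpace ℝ (Fin d)) α) ∧
      ¬ Admissible (EuclideanSpace ℝ (Fin d)) (1 / 2) ∧ alphaStar d ≤ 1 / 3 := by
  refine ⟨fun α h1 h2 => not_admissible d hd α h1 h2,
    not_admissible d hd (1 / 2) (by norm_num) (by norm_num), ?_⟩
  unfold alphaStar
  refine Real.sSup_le ?_ (by norm_num)
  rintro α ⟨_, h1, h2⟩
  by_contra h
  exact not_admissible d hd α (not_le.mp h) h1 h2

end Vale.Agent.Results.P074.Upper
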